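import Mathlib.Analysis.ODE.Gronwall
import Mathlib.Analysis.Calculus.MeanValue
import Mathlib.Analysis.SpecialFunctions.Exp
import Mathlib.Analysis.SpecialFunctions.Exponential

/-!
# The implicit midpoint rule for a globally Lipschitz vector field

`midpoint_error`: `N` implicit midpoint steps of size `h` stay `O(h)`-close to the exact solution.
-/

namespace Vale.Agent.P209.H18

open Set

variable {V : Type*} [NormedAddCommGroup V] [NormedSpace ℝ V]

/-- growth of a solution of `γ' = X γ`, `‖X x‖ ≤ L ‖x‖`. -/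
theorem sol_growth {X : V → V} {L T : ℝ} (hL0 : 0 ≤ L) (hX : ∀ x, ‖X x‖ ≤ L * ‖x‖)
    {γ : ℝ → V} (hγ : ∀ t ∈ Icc (0 : ℝ) T, HasDerivWithinAt γ (X (γ t)) (Icc 0 T) t)
    {t : ℝ} (ht : t ∈ Icc (0 : ℝ) T) : ‖γ t‖ ≤ Real.exp (L * T) * ‖γ 0‖ := by
  have hc : ContinuousOn γ (Icc 0 T) := fun s hs => (hγ s hs).continuousWithinAt
  have h1 := norm_le_gronwallBound_of_norm_deriv_right_le (f := γ) (f' := fun s => X (γ s))
    (δ := ‖γ 0‖) (K := L) (ε := 0) (a := 0) (b := T) hc
    (fun s hs => ((hγ s ⟨hs.1, hs.2.le⟩).mono_of_mem_nhdsWithin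
      (Icc_mem_nhdsGE_of_mem ⟨hs.1, hs.2⟩)))
    le_rfl (fun s _ => by simpa using hX (γ s)) t ht
  rw [gronwallBound_ε0, sub_zero] at h1
  calc ‖γ t‖ ≤ ‖γ 0‖ * Real.exp (L * t) := h1
    _ ≤ ‖γ 0‖ * Real.exp (L * T) := by
        gcongr
        exact ht.2
    _ = _ := mul_comm _ _

/-- defect of one midpoint step along an exact solution. -/
theorem step_defect {X : V → V} {L M : ℝ} (hL0 : 0 ≤ L) (hM : 0 ≤ M)
    (hX : ∀ x y, ‖X x - X y‖ ≤ L * ‖x - y‖) (hX0 : X 0 = 0)
    {γ : ℝ → V} {a h : ℝ} (hh : 0 ≤ h)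
    (hγ : ∀ t ∈ Icc a (a + h), HasDerivWithinAt γ (X (γ t)) (Icc a (a + h)) t)
    (hb : ∀ t ∈ Icc a (a + h), ‖γ t‖ ≤ M) :
    ‖γ (a + h) - γ a - h • X ((1 / 2 : ℝ) • (γ a + γ (a + h)))‖ ≤ L ^ 2 * M * h ^ 2 := by
  have hXb : ∀ x, ‖X x‖ ≤ L * ‖x‖ := fun x => by simpa [hX0] using hX x 0
  have hc : Convex ℝ (Icc a (a + h)) := convex_Icc _ _
  have ha : a ∈ Icc a (a + h) := ⟨le_rfl, by linarith⟩
  have hb' : a + h ∈ Icc a (a + h) := ⟨by linarith, le_rfl⟩
  -- γ is (L M)-Lipschitz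
  have hlip : ∀ s ∈ Icc a (a + h), ∀ t ∈ Icc a (a + h), ‖γ t - γ s‖ ≤ L * M * |t - s| := by
    intro s hs t ht
    have := hc.norm_image_sub_le_of_norm_hasDerivWithin_le (f := γ) (f' := fun t => X (γ t))
      (C := L * M) hγ (fun u hu => (hXb _).trans (by gcongr; exact hb u hu)) hs ht
    simpa [Real.norm_eq_abs] using this
  set m : V := (1 / 2 : ℝ) • (γ a + γ (a + h)) with hm
  have hmid : ∀ s ∈ Icc a (a + h), ‖γ s - m‖ ≤ L * M * h := by
    intro s hs
    have e : γ s - m = (1 / 2 : ℝ) • ((γ s - γ a) + (γ s - γ (a + h))) := by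
      rw [hm]; module
    have h1 := hlip a ha s hs
    have h2 := hlip (a + h) hb' s hs
    have h3 : |s - a| ≤ h := by rw [abs_le]; constructor <;> linarith [hs.1, hs.2]
    have h4 : |s - (a + h)| ≤ h := by rw [abs_le]; constructor <;> linarith [hs.1, hs.2]
    have hLM : 0 ≤ L * M := by positivity
    have h5 : ‖γ s - γ a‖ ≤ L * M * h := h1.trans (by gcongr)
    have h6 : ‖γ s - γ (a + h)‖ ≤ L * M * h := h2.trans (by gcongr)
    rw [e, norm_smul]
    have h7 := norm_add_le (γ s - γ a) (γ s - γ (a + h))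
    norm_num
    linarith
  have hd : ∀ t ∈ Icc a (a + h), HasDerivWithinAt (fun t => γ t - (t - a) • X m)
      (X (γ t) - X m) (Icc a (a + h)) t := by
    intro t ht
    have h1 : HasDerivWithinAt (fun t : ℝ => (t - a) • X m) (X m) (Icc a (a + h)) t := by
      have := ((hasDerivAt_id t).sub_const a).smul_const (X m)
      simpa using this.hasDerivWithinAt
    exact (hγ t ht).sub h1
  have h8 := hc.norm_image_sub_le_of_norm_hasDerivWithin_le
    (f := fun t => γ t - (t - a) • X m) (f' := fun t => X (γ t) - X m)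
    (C := L * (L * M * h)) hd (fun u hu => (hX _ _).trans (by gcongr; exact hmid u hu)) ha hb'
  have e1 : (γ (a + h) - (a + h - a) • X m) - (γ a - (a - a) • X m)
      = γ (a + h) - γ a - h • X m := by
    simp only [add_sub_cancel_left, sub_self, zero_smul, sub_zero]
    abel
  rw [e1] at h8
  refine h8.trans (le_of_eq ?_)
  rw [show a + h - a = h by ring, Real.norm_eq_abs, abs_of_nonneg hh]
  ring

/-- **Convergence of the implicit midpoint rule.** -/
theorem midpoint_error {X : V → V} {L T : ℝ} (hL0 : 0 ≤ L)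
    (hX : ∀ x y, ‖X x - X y‖ ≤ L * ‖x - y‖) (hX0 : X 0 = 0)
    {γ : ℝ → V} (hγ : ∀ t ∈ Icc (0 : ℝ) T, HasDerivWithinAt γ (X (γ t)) (Icc 0 T) t)
    {N : ℕ} {h : ℝ} (hh : 0 ≤ h) (hN : N * h = T) (hhL : h * L ≤ 1)
    {z : ℕ → V}
    (hz : ∀ k < N, z (k + 1) - z k = h • X ((1 / 2 : ℝ) • (z k + z (k + 1)))) :
    ‖z N - γ T‖ ≤ Real.exp (2 * L * T) * (‖z 0 - γ 0‖ +
      2 * L ^ 2 * T * Real.exp (L * T) * h * ‖γ 0‖) := by
  have hT : 0 ≤ T := by rw [← hN]; positivity
  set M : ℝ := Real.exp (L * T) * ‖γ 0‖ with hM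
  have hM0 : 0 ≤ M := by positivity
  have hXb : ∀ x, ‖X x‖ ≤ L * ‖x‖ := fun x => by simpa [hX0] using hX x 0
  have hgr : ∀ t ∈ Icc (0 : ℝ) T, ‖γ t‖ ≤ M := fun t ht => sol_growth hL0 hXb hγ ht
  have hmem : ∀ k : ℕ, k ≤ N → (k : ℝ) * h ∈ Icc (0 : ℝ) T := by
    intro k hk
    refine ⟨by positivity, ?_⟩
    rw [← hN]
    gcongr
  set e0 := ‖z 0 - γ 0‖ with he0
  have he00 : 0 ≤ e0 := norm_nonneg _
  have key : ∀ k : ℕ, k ≤ N → ‖z k - γ (k * h)‖ ≤
      (1 + 2 * (h * L)) ^ k * (e0 + k * (2 * L ^ 2 * M * h ^ 2)) := by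
    intro k
    induction k with
    | zero => intro _; simp [he0]
    | succ k ih =>
      intro hk
      have ihk := ih (by omega)
      have hs := hz k (by omega)
      have ht1 := hmem k (by omega)
      have ht2 := hmem (k + 1) hk
      push_cast at ht2
      have hsub : Icc ((k : ℝ) * h) ((k : ℝ) * h + h) ⊆ Icc 0 T := by
        intro s hs
        refine ⟨ht1.1.trans hs.1, hs.2.trans ?_⟩
        have := ht2.2
        linarith
      have hdef := step_defect (a := (k : ℝ) * h) (h := h) hL0 hM0 hX hX0 hh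
        (fun t ht => (hγ t (hsub ht)).mono hsub) (fun t ht => hgr t (hsub ht))
      have ekh : ((k + 1 : ℕ) : ℝ) * h = (k : ℝ) * h + h := by push_cast; ring
      rw [ekh]
      set g0 := γ ((k : ℝ) * h)
      set g1 := γ ((k : ℝ) * h + h)
      set a0 := ‖z k - g0‖ with ha0
      set a1 := ‖z (k + 1) - g1‖ with ha1
      have e : z (k + 1) - g1 = (z k - g0) + h • (X ((1 / 2 : ℝ) • (z k + z (k + 1)))
          - X ((1 / 2 : ℝ) • (g0 + g1))) - (g1 - g0 - h • X ((1 / 2 : ℝ) • (g0 + g1))) := by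
        have : z (k + 1) = z k + h • X ((1 / 2 : ℝ) • (z k + z (k + 1))) := by
          rw [← hs]; abel
        rw [smul_sub]
        nth_rewrite 1 [this]
        abel
      have hdX : ‖X ((1 / 2 : ℝ) • (z k + z (k + 1))) - X ((1 / 2 : ℝ) • (g0 + g1))‖
          ≤ L * ((a0 + a1) / 2) := by
        refine (hX _ _).trans ?_
        gcongr
        have e2 : (1 / 2 : ℝ) • (z k + z (k + 1)) - (1 / 2 : ℝ) • (g0 + g1)
            = (1 / 2 : ℝ) • ((z k - g0) + (z (k + 1) - g1)) := by module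
        rw [e2, norm_smul]
        have := norm_add_le (z k - g0) (z (k + 1) - g1)
        norm_num
        linarith
      have h1 : a1 ≤ a0 + h * (L * ((a0 + a1) / 2)) + L ^ 2 * M * h ^ 2 := by
        have h10 : ‖(z k - g0) + h • (X ((1 / 2 : ℝ) • (z k + z (k + 1)))
          - X ((1 / 2 : ℝ) • (g0 + g1))) - (g1 - g0 - h • X ((1 / 2 : ℝ) • (g0 + g1)))‖
            ≤ a0 + h * (L * ((a0 + a1) / 2)) + L ^ 2 * M * h ^ 2 := by
          refine (norm_sub_le _ _).trans ?_
          refine add_le_add ((norm_add_le _ _).trans ?_) hdef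
          rw [norm_smul, Real.norm_eq_abs, abs_of_nonneg hh]
          gcongr
        rwa [← e] at h10
      -- solve for a1
      set x := h * L with hx
      have hx0 : 0 ≤ x := by positivity
      have hD : 0 ≤ L ^ 2 * M * h ^ 2 := by positivity
      set D := L ^ 2 * M * h ^ 2 with hDdef
      have ha00 : 0 ≤ a0 := norm_nonneg _
      have h2 : (1 - x / 2) * a1 ≤ (1 + x / 2) * a0 + D := by
        have : h * (L * ((a0 + a1) / 2)) = x * (a0 + a1) / 2 := by rw [hx]; ring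
        rw [this] at h1
        nlinarith
      have h3 : a1 ≤ (1 + 2 * x) * a0 + 2 * D := by
        have hpos : (0 : ℝ) < 1 - x / 2 := by linarith
        have : (1 + x / 2) * a0 + D ≤ (1 - x / 2) * ((1 + 2 * x) * a0 + 2 * D) := by
          nlinarith [mul_nonneg hx0 ha00, mul_nonneg (sub_nonneg.2 hhL) (mul_nonneg hx0 ha00),
            mul_nonneg (sub_nonneg.2 hhL) hD]
        exact le_of_mul_le_mul_left (h2.trans this) hpos
      calc a1 ≤ (1 + 2 * x) * a0 + 2 * D := h3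
        _ ≤ (1 + 2 * x) * ((1 + 2 * x) ^ k * (e0 + k * (2 * D))) +
            (1 + 2 * x) ^ (k + 1) * (2 * D) := by
            refine add_le_add ?_ ?_
            · gcongr
              refine ihk.trans (le_of_eq ?_)
              rw [hDdef]; ring
            · have : (1 : ℝ) ≤ (1 + 2 * x) ^ (k + 1) := one_le_pow₀ (by linarith)
              nlinarith
        _ = (1 + 2 * x) ^ (k + 1) * (e0 + ((k + 1 : ℕ) : ℝ) * (2 * L ^ 2 * M * h ^ 2)) := by
            rw [hDdef, pow_succ]; push_cast; ring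
  have hfin := key N le_rfl
  rw [hN] at hfin
  refine hfin.trans ?_
  have hexp : (1 + 2 * (h * L)) ^ N ≤ Real.exp (2 * L * T) := by
    calc (1 + 2 * (h * L)) ^ N ≤ (Real.exp (2 * (h * L))) ^ N := by
          gcongr
          · have : 0 ≤ h * L := by positivity
            linarith [Real.add_one_le_exp (2 * (h * L))]
          
      _ = Real.exp (2 * L * T) := by
          rw [← Real.exp_nat_mul, ← hN]; ring_nf
  calc (1 + 2 * (h * L)) ^ N * (e0 + N * (2 * L ^ 2 * M * h ^ 2))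
      = (1 + 2 * (h * L)) ^ N * (e0 + 2 * L ^ 2 * M * (N * h) * h) := by ring
    _ ≤ Real.exp (2 * L * T) * (e0 + 2 * L ^ 2 * M * (N * h) * h) := by gcongr
    _ = Real.exp (2 * L * T) * (e0 + 2 * L ^ 2 * T * Real.exp (L * T) * h * ‖γ 0‖) := by
        rw [hN, hM]; ring

end Vale.Agent.P209.H18
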