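import Vale.Agent.P209.H18.Midpoint
import Mathlib.Analysis.ODE.Gronwall
import Mathlib.Analysis.SpecialFunctions.Exp
import Mathlib.Analysis.SpecialFunctions.Exponential
import Mathlib.Analysis.SpecialFunctions.ExpDeriv
import Mathlib.Analysis.SpecialFunctions.Trigonometric.Basic

/-!
# Comparison of solutions on `[0,1]`
-/

namespace Vale.Agent.P209.H18

open Set

variable {V : Type*} [NormedAddCommGroup V] [NormedSpace ℝ V]

theorem gronwall_simple {L : ℝ} (hL : 1 ≤ L) {δ ε t : ℝ} (hε : 0 ≤ ε) :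
    gronwallBound δ L ε t ≤ Real.exp (L * t) * (δ + ε) := by
  rw [gronwallBound_of_K_ne_0 (by linarith)]
  have h1 : ε / L ≤ ε := div_le_self hε hL
  have h2 : 0 < Real.exp (L * t) := Real.exp_pos _
  have h3 : ε / L * (Real.exp (L * t) - 1) ≤ ε * Real.exp (L * t) := by
    have h4 : ε / L * (Real.exp (L * t) - 1) ≤ ε / L * Real.exp (L * t) := by
      have : 0 ≤ ε / L := by positivity
      nlinarith
    have h5 : ε / L * Real.exp (L * t) ≤ ε * Real.exp (L * t) := by gcongr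
    linarith
  nlinarith

/-- comparison of solutions of `Y' = τ X(Y)` and `Y' = τ' X(Y)` on `[0,1]`. -/
theorem flow_compare {X : V → V} {L : ℝ} (hL : 1 ≤ L)
    (hX : ∀ x y, ‖X x - X y‖ ≤ L * ‖x - y‖) (hX0 : X 0 = 0) {τ τ' : ℝ} (hτ : 0 ≤ τ) (hτ1 : τ ≤ 1)
    (hτ' : 0 ≤ τ') (hτ1' : τ' ≤ 1)
    {Y Y' : ℝ → V} (h₁ : ∀ t ∈ Icc (0 : ℝ) 1, HasDerivWithinAt Y (τ • X (Y t)) (Icc 0 1) t)
    (h₂ : ∀ t ∈ Icc (0 : ℝ) 1, HasDerivWithinAt Y' (τ' • X (Y' t)) (Icc 0 1) t) :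
    ‖Y 1 - Y' 1‖ ≤ Real.exp L * (‖Y 0 - Y' 0‖ + |τ - τ'| * (L * (Real.exp L * ‖Y' 0‖))) := by
  have hXb : ∀ x, ‖X x‖ ≤ L * ‖x‖ := fun x => by simpa [hX0] using hX x 0
  have hX' : ∀ x, ‖τ' • X x‖ ≤ L * ‖x‖ := fun x => by
    rw [norm_smul, Real.norm_eq_abs, abs_of_nonneg hτ']
    have := hXb x
    nlinarith [norm_nonneg (X x)]
  have hgr : ∀ t ∈ Icc (0 : ℝ) 1, ‖Y' t‖ ≤ Real.exp L * ‖Y' 0‖ := fun t ht => by
    simpa using sol_growth (X := fun x => τ' • X x) (by linarith : (0 : ℝ) ≤ L) hX' h₂ ht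
  have hc : ContinuousOn (fun t => Y t - Y' t) (Icc 0 1) := fun s hs =>
    ((h₁ s hs).sub (h₂ s hs)).continuousWithinAt
  have h1 := norm_le_gronwallBound_of_norm_deriv_right_le (f := fun t => Y t - Y' t)
    (f' := fun s => τ • X (Y s) - τ' • X (Y' s))
    (δ := ‖Y 0 - Y' 0‖) (K := L) (ε := |τ - τ'| * (L * (Real.exp L * ‖Y' 0‖)))
    (a := 0) (b := 1) hc
    (fun s hs => (((h₁ s ⟨hs.1, hs.2.le⟩).sub (h₂ s ⟨hs.1, hs.2.le⟩)).mono_of_mem_nhdsWithin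
      (Icc_mem_nhdsGE_of_mem ⟨hs.1, hs.2⟩)))
    le_rfl (fun s hs => ?_) 1 ⟨zero_le_one, le_rfl⟩
  · rw [sub_zero] at h1
    refine h1.trans ((gronwall_simple hL (by positivity)).trans ?_)
    rw [mul_one]
  · have e : τ • X (Y s) - τ' • X (Y' s) = τ • (X (Y s) - X (Y' s)) + (τ - τ') • X (Y' s) := by
      module
    rw [e]
    refine (norm_add_le _ _).trans (add_le_add ?_ ?_)
    · rw [norm_smul, Real.norm_eq_abs, abs_of_nonneg hτ]
      have := hX (Y s) (Y' s)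
      nlinarith [norm_nonneg (X (Y s) - X (Y' s))]
    · rw [norm_smul, Real.norm_eq_abs]
      gcongr
      refine (hXb _).trans ?_
      gcongr
      exact hgr s ⟨hs.1, hs.2.le⟩

/-- first order expansion of a solution of `Y' = τ X(Y)`. -/
theorem sol_first_order {X : V → V} {L : ℝ} (hL : 1 ≤ L)
    (hX : ∀ x y, ‖X x - X y‖ ≤ L * ‖x - y‖) (hX0 : X 0 = 0) {τ : ℝ} (hτ : 0 ≤ τ) (hτ1 : τ ≤ 1)
    {Y : ℝ → V} (hY : ∀ t ∈ Icc (0 : ℝ) 1, HasDerivWithinAt Y (τ • X (Y t)) (Icc 0 1) t) :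
    ‖Y 1 - Y 0 - τ • X (Y 0)‖ ≤ τ ^ 2 * (L ^ 2 * (Real.exp L * ‖Y 0‖)) := by
  have hXb : ∀ x, ‖X x‖ ≤ L * ‖x‖ := fun x => by simpa [hX0] using hX x 0
  have hX' : ∀ x, ‖τ • X x‖ ≤ L * ‖x‖ := fun x => by
    rw [norm_smul, Real.norm_eq_abs, abs_of_nonneg hτ]
    have := hXb x
    nlinarith [norm_nonneg (X x)]
  set M := Real.exp L * ‖Y 0‖ with hM
  have hM0 : 0 ≤ M := by positivity
  have hgr : ∀ t ∈ Icc (0 : ℝ) 1, ‖Y t‖ ≤ M := fun t ht => by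
    simpa using sol_growth (X := fun x => τ • X x) (by linarith : (0 : ℝ) ≤ L) hX' hY ht
  have hc : Convex ℝ (Icc (0 : ℝ) 1) := convex_Icc _ _
  have h0 : (0 : ℝ) ∈ Icc (0 : ℝ) 1 := ⟨le_rfl, zero_le_one⟩
  have ht' : (1 : ℝ) ∈ Icc (0 : ℝ) 1 := ⟨zero_le_one, le_rfl⟩
  have hlip : ∀ s ∈ Icc (0 : ℝ) 1, ‖Y s - Y 0‖ ≤ τ * (L * M) := by
    intro s hs
    have := hc.norm_image_sub_le_of_norm_hasDerivWithin_le (f := Y) (f' := fun t => τ • X (Y t))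
      (C := τ * (L * M)) hY (fun u hu => by
        rw [norm_smul, Real.norm_eq_abs, abs_of_nonneg hτ]
        gcongr
        exact (hXb _).trans (by gcongr; exact hgr u hu)) h0 hs
    refine this.trans ?_
    rw [sub_zero, Real.norm_eq_abs, abs_of_nonneg hs.1]
    have h3 : 0 ≤ τ * (L * M) := by positivity
    have := hs.2
    nlinarith
  have hd : ∀ s ∈ Icc (0 : ℝ) 1, HasDerivWithinAt (fun s => Y s - s • (τ • X (Y 0)))
      (τ • X (Y s) - τ • X (Y 0)) (Icc 0 1) s := by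
    intro s hs
    have h1 : HasDerivWithinAt (fun s : ℝ => s • (τ • X (Y 0))) (τ • X (Y 0)) (Icc 0 1) s := by
      have := (hasDerivAt_id s).smul_const (τ • X (Y 0))
      simpa using this.hasDerivWithinAt
    exact (hY s hs).sub h1
  have h8 := hc.norm_image_sub_le_of_norm_hasDerivWithin_le
    (f := fun s => Y s - s • (τ • X (Y 0))) (f' := fun s => τ • X (Y s) - τ • X (Y 0))
    (C := τ * (L * (τ * (L * M)))) hd (fun u hu => by
      rw [← smul_sub, norm_smul, Real.norm_eq_abs, abs_of_nonneg hτ]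
      gcongr
      exact (hX _ _).trans (by gcongr; exact hlip u hu)) h0 ht'
  have e1 : (Y 1 - (1 : ℝ) • (τ • X (Y 0))) - (Y 0 - (0 : ℝ) • (τ • X (Y 0)))
      = Y 1 - Y 0 - τ • X (Y 0) := by
    rw [zero_smul, sub_zero, one_smul]; abel
  rw [e1] at h8
  refine h8.trans (le_of_eq ?_)
  norm_num
  ring

/-- the midpoint rule with `N` steps for `τ X` on `[0,1]`. -/
theorem chain_error {X : V → V} {L : ℝ} (hL : 1 ≤ L)
    (hX : ∀ x y, ‖X x - X y‖ ≤ L * ‖x - y‖) (hX0 : X 0 = 0) {τ : ℝ} (hτ : 0 ≤ τ) (hτ1 : τ ≤ 1)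
    {Y : ℝ → V} (hY : ∀ t ∈ Icc (0 : ℝ) 1, HasDerivWithinAt Y (τ • X (Y t)) (Icc 0 1) t)
    {N : ℕ} (hN0 : 0 < N) (hNL : L ≤ N) {z : ℕ → V}
    (hz : ∀ k < N, z (k + 1) - z k = (τ / N) • X ((1 / 2 : ℝ) • (z k + z (k + 1)))) :
    ‖z N - Y 1‖ ≤ Real.exp (2 * L) * (‖z 0 - Y 0‖ +
      2 * L ^ 2 * Real.exp L * (τ ^ 2 / N) * ‖Y 0‖) := by
  have hL0 : 0 ≤ τ * L := by nlinarith
  have hτL : τ * L ≤ L := by nlinarith
  have hX' : ∀ x y, ‖τ • X x - τ • X y‖ ≤ (τ * L) * ‖x - y‖ := fun x y => by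
    rw [← smul_sub, norm_smul, Real.norm_eq_abs, abs_of_nonneg hτ, mul_assoc]
    gcongr
    exact hX x y
  have hN0' : (0 : ℝ) < N := by exact_mod_cast hN0
  have h := midpoint_error (X := fun x => τ • X x) (L := τ * L) (T := 1) hL0 hX' (by simp [hX0])
    hY (N := N) (h := 1 / N) (by positivity) (by field_simp)
    (by rw [one_div, inv_mul_le_iff₀ hN0']; linarith) (z := z)
    (fun k hk => by rw [hz k hk, smul_smul]; congr 1; ring)
  refine h.trans ?_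
  have h1 : Real.exp (2 * (τ * L) * 1) ≤ Real.exp (2 * L) := by
    rw [Real.exp_le_exp]; linarith
  have h2 : Real.exp (τ * L * 1) ≤ Real.exp L := by
    rw [Real.exp_le_exp]; linarith
  have h3 : 2 * (τ * L) ^ 2 * 1 * Real.exp (τ * L * 1) * (1 / N) * ‖Y 0‖
      ≤ 2 * L ^ 2 * Real.exp L * (τ ^ 2 / N) * ‖Y 0‖ := by
    have : 2 * (τ * L) ^ 2 * 1 * Real.exp (τ * L * 1) * (1 / N) * ‖Y 0‖
      = 2 * L ^ 2 * Real.exp (τ * L * 1) * (τ ^ 2 / N) * ‖Y 0‖ := by ring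
    rw [this]
    gcongr
  gcongr

end Vale.Agent.P209.H18
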