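import Vale.Agent.P209.H18.NoChain
import Vale.Agent.P209.H710.Nec.Defs

/-!
# NEC row E: no closed midpoint chain if the number of steps is large
-/

namespace Vale.Agent.P209.H18

open Set Complex

open Vale.Agent.P209.H710.Nec

universe u

section

variable {V : Type u} [NormedAddCommGroup V] [InnerProductSpace ℂ V]

/-- bound for the growth on `[0,1]` -/
theorem growth_one {X : V → V} {L : ℝ} (hL : 1 ≤ L)
    (hX : ∀ x y, ‖X x - X y‖ ≤ L * ‖x - y‖) (hX0 : X 0 = 0) {τ : ℝ} (hτ : 0 ≤ τ) (hτ1 : τ ≤ 1)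
    {Y : ℝ → V} (hY : ∀ t ∈ Icc (0 : ℝ) 1, HasDerivWithinAt Y (τ • X (Y t)) (Icc 0 1) t) :
    ‖Y 1‖ ≤ Real.exp L * ‖Y 0‖ := by
  have hXb : ∀ x, ‖X x‖ ≤ L * ‖x‖ := fun x => by simpa [hX0] using hX x 0
  have hX' : ∀ x, ‖τ • X x‖ ≤ L * ‖x‖ := fun x => by
    rw [norm_smul, Real.norm_eq_abs, abs_of_nonneg hτ]
    have := hXb x
    nlinarith [norm_nonneg (X x)]
  simpa using sol_growth (X := fun x => τ • X x) (by linarith : (0 : ℝ) ≤ L) hX' hY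
    (t := 1) ⟨zero_le_one, le_rfl⟩

theorem norm_ph (t : ℝ) : ‖ph t‖ = 1 := by
  unfold ph
  rw [← ofReal_neg]
  exact Complex.norm_exp_ofReal_mul_I _

theorem continuous_ph : Continuous ph := by
  unfold ph
  fun_prop

theorem ph_first_order {t : ℝ} (ht : 2 * Real.pi * |t| ≤ 1) :
    ‖ph t - 1 - (-(2 * Real.pi * t : ℝ) * I : ℂ)‖ ≤ (2 * Real.pi * t) ^ 2 := by
  unfold ph
  have h1 : ‖(-(2 * Real.pi * t : ℝ) * I : ℂ)‖ = 2 * Real.pi * |t| := by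
    rw [norm_mul, norm_I, mul_one, norm_neg, Complex.norm_real, Real.norm_eq_abs, abs_mul,
      abs_of_pos (by positivity : (0 : ℝ) < 2 * Real.pi)]
  have h2 := Complex.norm_exp_sub_one_sub_id_le (x := (-(2 * Real.pi * t : ℝ) * I : ℂ))
    (by rw [h1]; exact ht)
  rw [h1] at h2
  refine h2.trans (le_of_eq ?_)
  rw [mul_pow, sq_abs, mul_pow, mul_pow, mul_pow]

/-- A pair of consecutive solutions. -/
structure Pair (X₁ X₂ : V → V) (τ : ℝ) (z e : V) : Prop where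
  ex : ∃ Y₁ Y₂ : ℝ → V, Y₁ 0 = z ∧ Y₂ 0 = Y₁ 1 ∧ Y₂ 1 = e ∧
    (∀ t ∈ Icc (0 : ℝ) 1, HasDerivWithinAt Y₁ (τ • X₁ (Y₁ t)) (Icc 0 1) t) ∧
    (∀ t ∈ Icc (0 : ℝ) 1, HasDerivWithinAt Y₂ (τ • X₂ (Y₂ t)) (Icc 0 1) t)

variable {X₁ X₂ : V → V} {L : ℝ}

theorem Pair.compare (hL : 1 ≤ L) (hL₁ : ∀ z w, ‖X₁ z - X₁ w‖ ≤ L * ‖z - w‖)
    (hL₂ : ∀ z w, ‖X₂ z - X₂ w‖ ≤ L * ‖z - w‖) (h01 : X₁ 0 = 0) (h02 : X₂ 0 = 0)
    {τ τ' : ℝ} (hτ : 0 ≤ τ) (hτ1 : τ ≤ 1) (hτ' : 0 ≤ τ') (hτ1' : τ' ≤ 1) {z z' e e' : V}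
    (hz' : ‖z'‖ = 1) (h : Pair X₁ X₂ τ z e) (h' : Pair X₁ X₂ τ' z' e') :
    ‖e - e'‖ ≤ Real.exp L ^ 2 * ‖z - z'‖ + 2 * Real.exp L ^ 3 * L * |τ - τ'| := by
  obtain ⟨Y₁, Y₂, a1, a2, a3, a4, a5⟩ := h
  obtain ⟨Y₁', Y₂', b1, b2, b3, b4, b5⟩ := h'
  have c1 := flow_compare hL hL₁ h01 hτ hτ1 hτ' hτ1' a4 b4
  have c2 := flow_compare hL hL₂ h02 hτ hτ1 hτ' hτ1' a5 b5
  have c3 := growth_one hL hL₁ h01 hτ' hτ1' b4
  rw [a3, b3, a2, b2] at c2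
  rw [a1, b1, hz', mul_one] at c1
  rw [b1, hz', mul_one] at c3
  have hE : 1 ≤ Real.exp L := Real.one_le_exp (by linarith)
  refine c2.trans ?_
  calc Real.exp L * (‖Y₁ 1 - Y₁' 1‖ + |τ - τ'| * (L * (Real.exp L * ‖Y₁' 1‖)))
      ≤ Real.exp L * (Real.exp L * (‖z - z'‖ + |τ - τ'| * (L * Real.exp L)) +
          |τ - τ'| * (L * (Real.exp L * Real.exp L))) := by gcongr
    _ = _ := by ring

theorem Pair.first_order (hL : 1 ≤ L) (hL₁ : ∀ z w, ‖X₁ z - X₁ w‖ ≤ L * ‖z - w‖)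
    (hL₂ : ∀ z w, ‖X₂ z - X₂ w‖ ≤ L * ‖z - w‖) (h01 : X₁ 0 = 0) (h02 : X₂ 0 = 0)
    {τ : ℝ} (hτ : 0 ≤ τ) (hτ1 : τ ≤ 1) {z e : V} (hz : ‖z‖ = 1) (h : Pair X₁ X₂ τ z e) :
    ‖e - z - τ • (X₁ z + X₂ z)‖ ≤ (4 * L ^ 3 * Real.exp L ^ 2) * τ ^ 2 := by
  obtain ⟨Y₁, Y₂, a1, a2, a3, a4, a5⟩ := h
  have c1 := sol_first_order hL hL₁ h01 hτ hτ1 a4
  have c2 := sol_first_order hL hL₂ h02 hτ hτ1 a5
  have c3 := growth_one hL hL₁ h01 hτ hτ1 a4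
  rw [a1, hz, mul_one] at c1 c3
  rw [a3, a2] at c2
  have hE : 1 ≤ Real.exp L := Real.one_le_exp (by linarith)
  have hX1 : ‖X₁ z‖ ≤ L := by simpa [h01, hz] using hL₁ z 0
  have c4 : ‖Y₁ 1 - z‖ ≤ τ * L + τ ^ 2 * (L ^ 2 * Real.exp L) := by
    have e1 : Y₁ 1 - z = τ • X₁ z + (Y₁ 1 - z - τ • X₁ z) := by abel
    rw [e1]
    refine (norm_add_le _ _).trans (add_le_add ?_ c1)
    rw [norm_smul, Real.norm_eq_abs, abs_of_nonneg hτ]
    gcongr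
  have c5 : ‖X₂ (Y₁ 1) - X₂ z‖ ≤ L * (τ * L + τ ^ 2 * (L ^ 2 * Real.exp L)) :=
    (hL₂ _ _).trans (by gcongr)
  have e2 : e - z - τ • (X₁ z + X₂ z) = (e - Y₁ 1 - τ • X₂ (Y₁ 1)) + (Y₁ 1 - z - τ • X₁ z) +
      τ • (X₂ (Y₁ 1) - X₂ z) := by module
  rw [e2]
  refine (norm_add_le _ _).trans ?_
  refine (add_le_add ((norm_add_le _ _).trans (add_le_add c2 c1)) le_rfl).trans ?_
  rw [norm_smul, Real.norm_eq_abs, abs_of_nonneg hτ]
  have c6 : τ ^ 2 * (L ^ 2 * (Real.exp L * ‖Y₁ 1‖)) ≤ L ^ 3 * Real.exp L ^ 2 * τ ^ 2 := by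
    have : τ ^ 2 * (L ^ 2 * (Real.exp L * ‖Y₁ 1‖)) ≤ τ ^ 2 * (L ^ 3 * (Real.exp L * Real.exp L)) := by
      have : L ^ 2 ≤ L ^ 3 := pow_le_pow_right₀ hL (by norm_num)
      gcongr
    refine this.trans (le_of_eq (by ring))
  have c7 : τ ^ 2 * (L ^ 2 * Real.exp L) ≤ L ^ 3 * Real.exp L ^ 2 * τ ^ 2 := by
    have : τ ^ 2 * (L ^ 2 * Real.exp L) ≤ τ ^ 2 * (L ^ 3 * Real.exp L ^ 2) := by
      have h1 : L ^ 2 ≤ L ^ 3 := pow_le_pow_right₀ hL (by norm_num)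
      have h2 : Real.exp L ≤ Real.exp L ^ 2 := le_self_pow₀ hE (by norm_num)
      gcongr
    refine this.trans (le_of_eq (by ring))
  have c8 : τ * ‖X₂ (Y₁ 1) - X₂ z‖ ≤ 2 * (L ^ 3 * Real.exp L ^ 2 * τ ^ 2) := by
    have d1 : τ * ‖X₂ (Y₁ 1) - X₂ z‖ ≤ τ * (L * (τ * L + τ ^ 2 * (L ^ 2 * Real.exp L))) := by
      gcongr
    have d2 : τ * (L * (τ * L + τ ^ 2 * (L ^ 2 * Real.exp L)))
        = τ ^ 2 * L ^ 2 + τ * (τ ^ 2 * (L ^ 3 * Real.exp L)) := by ring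
    have d3 : τ ^ 2 * L ^ 2 ≤ L ^ 3 * Real.exp L ^ 2 * τ ^ 2 := by
      have h1 : L ^ 2 ≤ L ^ 3 := pow_le_pow_right₀ hL (by norm_num)
      have h2 : 1 ≤ Real.exp L ^ 2 := one_le_pow₀ hE
      have h3 : L ^ 2 * 1 ≤ L ^ 3 * Real.exp L ^ 2 := by gcongr
      have h4 := mul_le_mul_of_nonneg_left h3 (sq_nonneg τ)
      linarith
    have d4 : τ * (τ ^ 2 * (L ^ 3 * Real.exp L)) ≤ L ^ 3 * Real.exp L ^ 2 * τ ^ 2 := by
      have h2 : Real.exp L ≤ Real.exp L ^ 2 := le_self_pow₀ hE (by norm_num)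
      have h3 : L ^ 3 * Real.exp L ≤ L ^ 3 * Real.exp L ^ 2 := by gcongr
      have h4 : 0 ≤ τ ^ 2 * (L ^ 3 * Real.exp L) := by positivity
      have h5 := mul_le_mul_of_nonneg_left h3 (sq_nonneg τ)
      nlinarith
    linarith
  linarith

theorem Pair.chain (hL : 1 ≤ L) (hL₁ : ∀ z w, ‖X₁ z - X₁ w‖ ≤ L * ‖z - w‖)
    (hL₂ : ∀ z w, ‖X₂ z - X₂ w‖ ≤ L * ‖z - w‖) (h01 : X₁ 0 = 0) (h02 : X₂ 0 = 0)
    {τ : ℝ} (hτ : 0 ≤ τ) (hτ1 : τ ≤ 1) {e : V} {N : ℕ} (hN0 : 0 < N) (hNL : L ≤ N)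
    {z z' : ℕ → V} (hz0 : ‖z 0‖ = 1) (h : Pair X₁ X₂ τ (z 0) e)
    (hz : ∀ k < N, z (k + 1) - z k = (τ / N) • X₁ ((1 / 2 : ℝ) • (z k + z (k + 1))))
    (hz' : ∀ k < N, z' (k + 1) - z' k = (τ / N) • X₂ ((1 / 2 : ℝ) • (z' k + z' (k + 1))))
    (h0 : z' 0 = z N) :
    ‖z' N - e‖ ≤ (4 * L ^ 2 * Real.exp (2 * L) ^ 2 * Real.exp L ^ 2) * (τ ^ 2 / N) := by
  obtain ⟨Y₁, Y₂, a1, a2, a3, a4, a5⟩ := h
  have c1 := chain_error hL hL₁ h01 hτ hτ1 a4 hN0 hNL hz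
  have c2 := chain_error hL hL₂ h02 hτ hτ1 a5 hN0 hNL hz'
  have c3 := growth_one hL hL₁ h01 hτ hτ1 a4
  rw [a1, sub_self, norm_zero, zero_add, hz0, mul_one] at c1
  rw [a1, hz0, mul_one] at c3
  rw [a3, a2, h0] at c2
  have hE : 1 ≤ Real.exp L := Real.one_le_exp (by linarith)
  have hE2 : 1 ≤ Real.exp (2 * L) := Real.one_le_exp (by linarith)
  refine c2.trans ?_
  have c4 : ‖z N - Y₁ 1‖ ≤ 2 * L ^ 2 * Real.exp (2 * L) * Real.exp L ^ 2 * (τ ^ 2 / N) := by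
    refine c1.trans ?_
    have h2 : Real.exp L ≤ Real.exp L ^ 2 := le_self_pow₀ hE (by norm_num)
    calc Real.exp (2 * L) * (2 * L ^ 2 * Real.exp L * (τ ^ 2 / N))
        ≤ Real.exp (2 * L) * (2 * L ^ 2 * Real.exp L ^ 2 * (τ ^ 2 / N)) := by gcongr
      _ = _ := by ring
  have c5 : 2 * L ^ 2 * Real.exp L * (τ ^ 2 / N) * ‖Y₁ 1‖ ≤
      2 * L ^ 2 * Real.exp (2 * L) * Real.exp L ^ 2 * (τ ^ 2 / N) := by
    calc 2 * L ^ 2 * Real.exp L * (τ ^ 2 / N) * ‖Y₁ 1‖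
        ≤ 2 * L ^ 2 * Real.exp L * (τ ^ 2 / N) * Real.exp L := by gcongr
      _ = 2 * L ^ 2 * 1 * Real.exp L ^ 2 * (τ ^ 2 / N) := by ring
      _ ≤ _ := by gcongr
  calc Real.exp (2 * L) * (‖z N - Y₁ 1‖ + 2 * L ^ 2 * Real.exp L * (τ ^ 2 / N) * ‖Y₁ 1‖)
      ≤ Real.exp (2 * L) * (2 * L ^ 2 * Real.exp (2 * L) * Real.exp L ^ 2 * (τ ^ 2 / N) +
        2 * L ^ 2 * Real.exp (2 * L) * Real.exp L ^ 2 * (τ ^ 2 / N)) := by gcongr
    _ = _ := by ring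

end

theorem E : E_statement.{u} := by
  intro V _ _ _ X₁ X₂ K s hs0 hs1 hX₁ hX₂ hc₁ hc₂ _ _ hinf hflow
  obtain ⟨L, hL, hKL⟩ : ∃ L : ℝ, 1 ≤ L ∧ K ≤ L := ⟨max K 1, le_max_right _ _, le_max_left _ _⟩
  have hL₁ : ∀ z w, ‖X₁ z - X₁ w‖ ≤ L * ‖z - w‖ := fun z w =>
    (hX₁ z w).trans (by gcongr)
  have hL₂ : ∀ z w, ‖X₂ z - X₂ w‖ ≤ L * ‖z - w‖ := fun z w =>
    (hX₂ z w).trans (by gcongr)
  have h01 : X₁ 0 = 0 := by simpa using hc₁ 0 0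
  have h02 : X₂ 0 = 0 := by simpa using hc₂ 0 0
  have hfd : FiniteDimensional ℝ V := FiniteDimensional.complexToReal V
  have hps : ProperSpace V := FiniteDimensional.proper ℝ V
  have hsph : IsCompact (Metric.sphere (0 : V) 1) := isCompact_sphere 0 1
  have hne0 : ∀ z ∈ Metric.sphere (0 : V) 1, z ≠ 0 := by
    intro z hz h0
    rw [mem_sphere_zero_iff_norm, h0, norm_zero] at hz
    exact zero_ne_one hz
  -- exact pairs
  have hP : ∀ z, z ≠ 0 → ∀ τ : ℝ, 0 < τ → τ ≤ 1 →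
      ∃ e, Pair X₁ X₂ τ z e ∧ e ≠ ph (τ * s) • z := by
    intro z hz τ h1 h2
    obtain ⟨Y₁, Y₂, a1, a2, a3, a4, a5⟩ := hflow z hz τ h1 h2
    refine ⟨Y₂ 1, ⟨Y₁, Y₂, a1, a2, rfl, ?_, ?_⟩, a5⟩
    · intro t ht
      have := a3 t ht
      rwa [Complex.coe_smul] at this
    · intro t ht
      have := a4 t ht
      rwa [Complex.coe_smul] at this
  have hLip₁ : Continuous X₁ := (LipschitzWith.of_dist_le_mul (K := Real.toNNReal L)
    (fun x y => by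
      rw [dist_eq_norm, dist_eq_norm, Real.coe_toNNReal _ (by linarith)]
      exact hL₁ x y)).continuous
  have hLip₂ : Continuous X₂ := (LipschitzWith.of_dist_le_mul (K := Real.toNNReal L)
    (fun x y => by
      rw [dist_eq_norm, dist_eq_norm, Real.coe_toNNReal _ (by linarith)]
      exact hL₂ x y)).continuous
  -- the infinitesimal gap
  obtain ⟨δ₁, hδ₁, hgap₁⟩ : ∃ δ : ℝ, 0 < δ ∧ ∀ z : V, ‖z‖ = 1 →
      δ ≤ ‖X₁ z + X₂ z - (-(2 * Real.pi * s : ℝ) * I : ℂ) • z‖ := by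
    rcases (Metric.sphere (0 : V) 1).eq_empty_or_nonempty with he | hne
    · refine ⟨1, one_pos, fun z hz => ?_⟩
      have : z ∈ Metric.sphere (0 : V) 1 := mem_sphere_zero_iff_norm.2 hz
      rw [he] at this
      exact absurd this (notMem_empty _)
    · obtain ⟨z₀, hz₀, hmin⟩ := hsph.exists_isMinOn hne
        (f := fun z => ‖X₁ z + X₂ z - (-(2 * Real.pi * s : ℝ) * I : ℂ) • z‖)
        (by fun_prop)
      refine ⟨_, norm_pos_iff.2 (sub_ne_zero.2 (hinf z₀ (hne0 z₀ hz₀))), fun z hz => ?_⟩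
      exact hmin (mem_sphere_zero_iff_norm.2 hz)
  -- the gap for `τ ≥ τ₁`
  have hgap : ∀ τ₁ : ℝ, 0 < τ₁ → ∃ δ : ℝ, 0 < δ ∧ ∀ τ : ℝ, τ₁ ≤ τ → τ ≤ 1 → ∀ z e : V,
      ‖z‖ = 1 → Pair X₁ X₂ τ z e → δ ≤ ‖e - ph (τ * s) • z‖ := by
    intro τ₁ hτ₁
    classical
    set S : Set (ℝ × V) := Icc τ₁ 1 ×ˢ Metric.sphere (0 : V) 1 with hS
    have hSc : IsCompact S := isCompact_Icc.prod hsph
    have hex : ∀ q : ℝ × V, ∃ e : V, q ∈ S → Pair X₁ X₂ q.1 q.2 e ∧ e ≠ ph (q.1 * s) • q.2 := by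
      intro q
      by_cases hq : q ∈ S
      · obtain ⟨e, he⟩ := hP q.2 (hne0 _ hq.2) q.1 (hτ₁.trans_le hq.1.1) hq.1.2
        exact ⟨e, fun _ => he⟩
      · exact ⟨0, fun h => absurd h hq⟩
    choose ee hee using hex
    have hE : 1 ≤ Real.exp L := Real.one_le_exp (by linarith)
    have hlip : LipschitzOnWith (Real.toNNReal (4 * Real.exp L ^ 3 * L)) ee S := by
      refine LipschitzOnWith.of_dist_le_mul fun q hq q' hq' => ?_
      have h1 := (hee q hq).1.compare hL hL₁ hL₂ h01 h02 (hτ₁.le.trans hq.1.1) hq.1.2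
        (hτ₁.le.trans hq'.1.1) hq'.1.2 (mem_sphere_zero_iff_norm.1 hq'.2) (hee q' hq').1
      rw [dist_eq_norm]
      have h2 : ‖q.2 - q'.2‖ ≤ dist q q' := by
        rw [← dist_eq_norm, Prod.dist_eq]; exact le_max_right _ _
      have h3 : |q.1 - q'.1| ≤ dist q q' := by
        rw [← Real.dist_eq, Prod.dist_eq]; exact le_max_left _ _
      have h4 : Real.exp L ^ 2 * ‖q.2 - q'.2‖ ≤ (2 * Real.exp L ^ 3 * L) * dist q q' := by
        have h5 : Real.exp L ^ 2 ≤ Real.exp L ^ 3 := pow_le_pow_right₀ hE (by norm_num)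
        have h6 : 0 ≤ Real.exp L ^ 3 := by positivity
        have h7 : Real.exp L ^ 2 ≤ 2 * Real.exp L ^ 3 * L := by nlinarith
        calc _ ≤ (2 * Real.exp L ^ 3 * L) * ‖q.2 - q'.2‖ := by gcongr
          _ ≤ _ := by gcongr
      have h8 : 2 * Real.exp L ^ 3 * L * |q.1 - q'.1| ≤ (2 * Real.exp L ^ 3 * L) * dist q q' := by
        gcongr
      refine h1.trans ?_
      rw [Real.coe_toNNReal _ (by positivity)]
      linarith
    rcases S.eq_empty_or_nonempty with he | hne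
    · refine ⟨1, one_pos, fun τ h1 h2 z e hz _ => ?_⟩
      have : (τ, z) ∈ S := ⟨⟨h1, h2⟩, mem_sphere_zero_iff_norm.2 hz⟩
      rw [he] at this
      exact absurd this (notMem_empty _)
    · have hcont : ContinuousOn (fun q : ℝ × V => ‖ee q - ph (q.1 * s) • q.2‖) S := by
        have h1 : Continuous fun q : ℝ × V => ph (q.1 * s) • q.2 :=
          (continuous_ph.comp (continuous_fst.mul continuous_const)).smul continuous_snd
        exact (hlip.continuousOn.sub h1.continuousOn).norm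
      obtain ⟨q₀, hq₀, hmin⟩ := hSc.exists_isMinOn hne hcont
      refine ⟨_, norm_pos_iff.2 (sub_ne_zero.2 (hee q₀ hq₀).2), fun τ h1 h2 z e hz hPe => ?_⟩
      have hq : (τ, z) ∈ S := ⟨⟨h1, h2⟩, mem_sphere_zero_iff_norm.2 hz⟩
      have h3 := hPe.compare hL hL₁ hL₂ h01 h02 (hτ₁.le.trans h1) h2 (hτ₁.le.trans h1) h2 hz
        (hee _ hq).1
      simp only [sub_self, norm_zero, mul_zero, abs_zero, add_zero] at h3
      have h4 : e = ee (τ, z) := sub_eq_zero.1 (norm_le_zero_iff.1 h3)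
      have h5 := hmin hq
      simp only [mem_ofPred_eq] at h5
      rw [h4]
      exact h5
  -- constants
  set C₁ : ℝ := 4 * L ^ 2 * Real.exp (2 * L) ^ 2 * Real.exp L ^ 2 with hC₁
  set C₂ : ℝ := 4 * L ^ 3 * Real.exp L ^ 2 with hC₂
  have hC₁0 : 0 < C₁ := by positivity
  have hC₂0 : 0 < C₂ := by positivity
  set C : ℝ := C₁ + C₂ + (2 * Real.pi * s) ^ 2 with hC
  have hC0 : 0 < C := by positivity
  set τ₁ : ℝ := min (δ₁ / (2 * C)) (1 / (2 * Real.pi)) with hτ₁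
  have hτ₁0 : 0 < τ₁ := lt_min (by positivity) (by positivity)
  obtain ⟨δ, hδ, hgapδ⟩ := hgap τ₁ hτ₁0
  obtain ⟨N₁, hN₁⟩ := exists_nat_ge L
  obtain ⟨N₂, hN₂⟩ := exists_nat_gt (C₁ / δ)
  refine ⟨max N₁ N₂, fun N hN hN0 τ hτ0 hτ1 z z' hz hz' h0 hfin => ?_⟩
  by_contra hne
  -- normalise
  set a : ℂ := ((‖z 0‖⁻¹ : ℝ) : ℂ) with ha
  have hLN : L ≤ N := hN₁.trans (by exact_mod_cast (le_max_left N₁ N₂).trans hN)
  have hN0' : (0 : ℝ) < N := by exact_mod_cast hN0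
  have hCN : C₁ / N < δ := by
    have h1 : C₁ / δ < N := hN₂.trans_le (by exact_mod_cast (le_max_right N₁ N₂).trans hN)
    rw [div_lt_iff₀ hδ] at h1
    rw [div_lt_iff₀ hN0']
    linarith
  have hz1 : ‖a • z 0‖ = 1 := by
    rw [norm_smul, ha, Complex.norm_real, norm_inv, norm_norm]
    exact inv_mul_cancel₀ (norm_ne_zero_iff.2 hne)
  have hzz : ∀ k < N, a • z (k + 1) - a • z k =
      (τ / N) • X₁ ((1 / 2 : ℝ) • (a • z k + a • z (k + 1))) := by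
    intro k hk
    have e1 : (1 / 2 : ℝ) • (a • z k + a • z (k + 1)) = a • ((1 / 2 : ℂ) • (z k + z (k + 1))) := by
      rw [← Complex.coe_smul, ← smul_add, smul_comm]
      push_cast
      rfl
    rw [e1, hc₁, ← smul_sub, hz k hk, ← Complex.coe_smul, smul_comm]
  have hzz' : ∀ k < N, a • z' (k + 1) - a • z' k =
      (τ / N) • X₂ ((1 / 2 : ℝ) • (a • z' k + a • z' (k + 1))) := by
    intro k hk
    have e1 : (1 / 2 : ℝ) • (a • z' k + a • z' (k + 1)) =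
        a • ((1 / 2 : ℂ) • (z' k + z' (k + 1))) := by
      rw [← Complex.coe_smul, ← smul_add, smul_comm]
      push_cast
      rfl
    rw [e1, hc₂, ← smul_sub, hz' k hk, ← Complex.coe_smul, smul_comm]
  have hfin' : a • z' N = ph (τ * s) • (a • z 0) := by rw [hfin, smul_comm]
  have hz1ne : a • z 0 ≠ 0 := hne0 _ (mem_sphere_zero_iff_norm.2 hz1)
  obtain ⟨e, he, -⟩ := hP (a • z 0) hz1ne τ hτ0 hτ1
  have hch := Pair.chain hL hL₁ hL₂ h01 h02 hτ0.le hτ1 hN0 hLN (z := fun k => a • z k)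
    (z' := fun k => a • z' k) hz1 he hzz hzz' (by simp only [h0])
  simp only [hfin'] at hch
  rw [← hC₁] at hch
  rcases le_total τ₁ τ with hcase | hcase
  · have h1 := hgapδ τ hcase hτ1 _ _ hz1 he
    rw [norm_sub_rev] at hch
    have h2 : C₁ * (τ ^ 2 / N) ≤ C₁ / N := by
      have : τ ^ 2 ≤ 1 := pow_le_one₀ hτ0.le hτ1
      calc C₁ * (τ ^ 2 / N) ≤ C₁ * (1 / N) := by gcongr
        _ = C₁ / N := by ring
    linarith
  · have hfo := he.first_order hL hL₁ hL₂ h01 h02 hτ0.le hτ1 hz1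
    rw [← hC₂] at hfo
    have hch2 : C₁ * (τ ^ 2 / N) ≤ C₁ * τ ^ 2 := by
      have : (1 : ℝ) ≤ N := by exact_mod_cast hN0
      have : τ ^ 2 / N ≤ τ ^ 2 := div_le_self (sq_nonneg τ) this
      gcongr
    have hπτ : 2 * Real.pi * |τ * s| ≤ 1 := by
      rw [abs_of_pos (by positivity)]
      have h1 : τ ≤ 1 / (2 * Real.pi) := hcase.trans (min_le_right _ _)
      rw [le_div_iff₀ (by positivity)] at h1
      have h2 : 0 < 2 * Real.pi * τ := by positivity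
      nlinarith
    have hph := ph_first_order hπτ
    set w := a • z 0 with hw
    have hg := hgap₁ w hz1
    have e3 : τ • (X₁ w + X₂ w - (-(2 * Real.pi * s : ℝ) * I : ℂ) • w) =
        -(e - w - τ • (X₁ w + X₂ w)) - (ph (τ * s) • w - e) +
        (ph (τ * s) - 1 - (-(2 * Real.pi * (τ * s) : ℝ) * I : ℂ)) • w := by
      have e4 : τ • ((-(2 * Real.pi * s : ℝ) * I : ℂ) • w) =
          (-(2 * Real.pi * (τ * s) : ℝ) * I : ℂ) • w := by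
        rw [← Complex.coe_smul, smul_smul]
        congr 1
        push_cast
        ring
      rw [smul_sub, e4, sub_smul, sub_smul, one_smul]
      abel
    have h1 : τ * ‖X₁ w + X₂ w - (-(2 * Real.pi * s : ℝ) * I : ℂ) • w‖ ≤
        C₂ * τ ^ 2 + C₁ * τ ^ 2 + (2 * Real.pi * (τ * s)) ^ 2 := by
      have h2 : τ * ‖X₁ w + X₂ w - (-(2 * Real.pi * s : ℝ) * I : ℂ) • w‖ =
          ‖τ • (X₁ w + X₂ w - (-(2 * Real.pi * s : ℝ) * I : ℂ) • w)‖ := by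
        rw [norm_smul, Real.norm_eq_abs, abs_of_pos hτ0]
      rw [h2, e3]
      refine (norm_add_le _ _).trans (add_le_add ((norm_sub_le _ _).trans
        (add_le_add ?_ (hch.trans hch2))) ?_)
      · rw [norm_neg]; exact hfo
      · rw [norm_smul, hz1, mul_one]; exact hph
    have h3 : τ * δ₁ ≤ C * τ ^ 2 := by
      calc τ * δ₁ ≤ τ * ‖X₁ w + X₂ w - (-(2 * Real.pi * s : ℝ) * I : ℂ) • w‖ := by gcongr
        _ ≤ _ := h1
        _ = C * τ ^ 2 := by rw [hC]; ring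
    have h4 : δ₁ ≤ C * τ := by
      have : τ * δ₁ ≤ τ * (C * τ) := by linarith
      exact le_of_mul_le_mul_left this hτ0
    have h5 : τ ≤ δ₁ / (2 * C) := hcase.trans (min_le_left _ _)
    rw [le_div_iff₀ (by positivity)] at h5
    linarith

end Vale.Agent.P209.H18
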